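import Vale.Agent.P247.H869.Bds

/-!
# P247, S2: package SOL

A solution of the Seiberg-Witten system, written in eigenspinors of the direction of the
perturbation, with uniform bounds of all coefficients.
-/

open scoped ContDiff Topology
open Set MeasureTheory Filter Metric

noncomputable section

namespace Vale.Agent.P247.H869

open Vale.Agent.P247.H74 Vale.Agent.P247.H574 Vale.Agent.P247.H647

/-! ## Spinors -/

lemma pau_symm (k : Fin 3) (x y : Sp) : inner ℂ (pau k x) y = inner ℂ x (pau k y) := by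
  rw [EuclideanSpace.inner_eq_star_dotProduct, EuclideanSpace.inner_eq_star_dotProduct]
  simp only [pau, opM, Matrix.ofLp_toEuclideanCLM]
  fin_cases k <;>
    simp [pauM, Matrix.mulVec, dotProduct, Fin.sum_univ_two] <;> ring

/-- the Hermitian endomorphism of a vector in `ℝ³` -/
def herm (w : Fin 3 → ℝ) (s : Sp) : Sp := ∑ k, (w k : ℂ) • pau k s

lemma herm_symm (w : Fin 3 → ℝ) (x y : Sp) : inner ℂ (herm w x) y = inner ℂ x (herm w y) := by
  unfold herm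
  rw [sum_inner, inner_sum]
  refine Finset.sum_congr rfl fun k _ => ?_
  rw [inner_smul_left, inner_smul_right, pau_symm, Complex.conj_ofReal]

lemma eig_orth {w : Fin 3 → ℝ} {ρ : ℝ} (hρ : 0 < ρ) {f g : Sp}
    (hf : ∑ k, (w k : ℂ) • pau k f = (ρ / 2 : ℂ) • f)
    (hg : ∑ k, (w k : ℂ) • pau k g = -(ρ / 2 : ℂ) • g) : inner ℂ f g = 0 := by
  have h := herm_symm w f g
  unfold herm at h
  rw [hf, hg, inner_smul_left, inner_smul_right] at h
  have hc : (starRingEnd ℂ) (ρ / 2 : ℂ) = (ρ / 2 : ℂ) := by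
    rw [map_div₀, Complex.conj_ofReal, map_ofNat]
  rw [hc] at h
  have h2 : (ρ : ℂ) * inner ℂ f g = 0 := by linear_combination h
  have hρ' : (ρ : ℂ) ≠ 0 := by exact_mod_cast hρ.ne'
  exact (mul_eq_zero.mp h2).resolve_left hρ'

/-- two orthogonal vectors of the same length span -/
lemma decomp {ρ : ℝ} (hρ : 0 < ρ) {f g : Sp} (hf : ‖f‖ ^ 2 = ρ) (hg : ‖g‖ ^ 2 = ρ)
    (hfg : inner ℂ f g = 0) (s : Sp) :
    ((ρ : ℂ)⁻¹ * inner ℂ f s) • f + ((ρ : ℂ)⁻¹ * inner ℂ g s) • g = s ∧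
    (‖(ρ : ℂ)⁻¹ * inner ℂ f s‖ ^ 2 + ‖(ρ : ℂ)⁻¹ * inner ℂ g s‖ ^ 2) * ρ = ‖s‖ ^ 2 := by
  set c : ℝ := (Real.sqrt ρ)⁻¹ with hc
  have hsq : Real.sqrt ρ ^ 2 = ρ := Real.sq_sqrt hρ.le
  have hs0 : 0 < Real.sqrt ρ := Real.sqrt_pos.mpr hρ
  have hc2 : c * c = ρ⁻¹ := by
    rw [hc, ← mul_inv, ← sq, hsq]
  have nf : ‖f‖ = Real.sqrt ρ := by
    rw [← hf, Real.sqrt_sq (norm_nonneg _)]
  have ng : ‖g‖ = Real.sqrt ρ := by
    rw [← hg, Real.sqrt_sq (norm_nonneg _)]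
  let v : Fin 2 → Sp := ![(c : ℂ) • f, (c : ℂ) • g]
  have hv : Orthonormal ℂ v := by
    have n1 : ∀ h : Sp, ‖h‖ = Real.sqrt ρ → ‖(c : ℂ) • h‖ = 1 := by
      intro h hh
      rw [norm_smul, hh, Complex.norm_real, hc, norm_inv, Real.norm_eq_abs, abs_of_pos hs0,
        inv_mul_cancel₀ hs0.ne']
    constructor
    · intro i
      fin_cases i
      · exact n1 f nf
      · exact n1 g ng
    · intro i j hij
      fin_cases i <;> fin_cases j
      · exact absurd rfl hij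
      · change inner ℂ ((c : ℂ) • f) ((c : ℂ) • g) = 0
        rw [inner_smul_left, inner_smul_right, hfg, mul_zero, mul_zero]
      · have : inner ℂ g f = 0 := by rw [← inner_conj_symm, hfg, map_zero]
        change inner ℂ ((c : ℂ) • g) ((c : ℂ) • f) = 0
        rw [inner_smul_left, inner_smul_right, this, mul_zero, mul_zero]
      · exact absurd rfl hij
  have hcard : Fintype.card (Fin 2) = Module.finrank ℂ Sp := by simp
  let b := (basisOfOrthonormalOfCardEqFinrank hv hcard).toOrthonormalBasis (by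
    rw [coe_basisOfOrthonormalOfCardEqFinrank]; exact hv)
  have hb : ⇑b = v := by
    simp [b]
  have h1 := b.sum_repr' s
  have h2 := b.sum_sq_norm_inner_right s
  rw [hb, Fin.sum_univ_two] at h1 h2
  simp only [v, Matrix.cons_val_zero, Matrix.cons_val_one, inner_smul_left, Complex.conj_ofReal,
    smul_smul] at h1 h2
  have hcc : (c : ℂ) * c = (ρ : ℂ)⁻¹ := by
    rw [← Complex.ofReal_mul, hc2, Complex.ofReal_inv]
  constructor
  · conv_rhs => rw [← h1]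
    rw [← hcc]
    congr 2 <;> ring
  · rw [← h2, ← hcc]
    have e1 : ∀ z : ℂ, ‖(c : ℂ) * c * z‖ ^ 2 * ρ = ‖(c : ℂ) * z‖ ^ 2 := by
      intro z
      rw [mul_assoc, norm_mul, mul_pow, Complex.norm_real, Real.norm_eq_abs, sq_abs, hc, inv_pow,
        hsq]
      field_simp
    rw [add_mul, e1, e1]

lemma abs_le_len (w : Fin 3 → ℝ) (k : Fin 3) : |w k| ≤ len w := by
  unfold len
  rw [← Real.sqrt_sq_eq_abs]
  refine Real.sqrt_le_sqrt ?_
  exact Finset.single_le_sum (f := fun k => w k ^ 2) (fun i _ => sq_nonneg _) (Finset.mem_univ k)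

lemma len_sq (w : Fin 3 → ℝ) : len w ^ 2 = ∑ k, w k ^ 2 :=
  Real.sq_sqrt (Finset.sum_nonneg fun _ _ => sq_nonneg _)

lemma len_nonneg (w : Fin 3 → ℝ) : 0 ≤ len w := Real.sqrt_nonneg _

lemma len_smul {r : ℝ} (hr : 0 < r) (w : Fin 3 → ℝ) : len (fun j => r * w j) = r * len w := by
  have h1 : len (fun j => r * w j) ^ 2 = (r * len w) ^ 2 := by
    rw [mul_pow, len_sq, len_sq, Finset.mul_sum]
    exact Finset.sum_congr rfl fun k _ => by ring
  exact (sq_eq_sq₀ (len_nonneg _) (mul_nonneg hr.le (len_nonneg _))).mp h1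

variable {D : Data} (Q : Quat D)

lemma dv_smul {r : ℝ} (u : Fin 3 → ℝ) (x : R4) :
    Q.dv x (fun j => r * u j) = fun j => r * Q.dv x u j := by
  unfold Quat.dv
  have : (fun j => r * u j) = r • u := rfl
  rw [this, Matrix.mulVec_smul]
  rfl

lemma rho_smul {r : ℝ} (hr : 0 < r) (u : Fin 3 → ℝ) (x : R4) :
    Q.rho (fun j => r * u j) x = r * Q.rho u x := by
  unfold Quat.rho
  rw [dv_smul, len_smul hr]
  ring

lemma rho_lower : ∃ c : ℝ, 0 < c ∧ ∀ u, len u = 1 → ∀ x, c ≤ Q.rho u x := by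
  have hbd : ∀ j k, ∃ C : ℝ, ∀ x, ‖Q.T x j k‖ ≤ C := fun j k =>
    per_bounded (Q.T_smooth j k).continuous (Q.T_per j k)
  choose C hC using hbd
  set B := 1 + ∑ j, ∑ k, C j k with hB
  have hCnn : ∀ j k, 0 ≤ C j k := fun j k => (norm_nonneg _).trans (hC j k 0)
  have hBpos : 0 < B := by
    have : 0 ≤ ∑ j, ∑ k, C j k := Finset.sum_nonneg fun j _ => Finset.sum_nonneg fun k _ => hCnn j k
    linarith
  have hT : ∀ x j k, |Q.T x j k| ≤ B := by
    intro x j k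
    have h1 : C j k ≤ ∑ k, C j k := Finset.single_le_sum (f := fun k => C j k)
      (fun i _ => hCnn j i) (Finset.mem_univ k)
    have h2 : ∑ k, C j k ≤ ∑ j, ∑ k, C j k := Finset.single_le_sum (f := fun j => ∑ k, C j k)
      (fun i _ => Finset.sum_nonneg fun k _ => hCnn i k) (Finset.mem_univ j)
    have h3 := hC j k x
    rw [Real.norm_eq_abs] at h3
    linarith
  refine ⟨1 / (3 * B), by positivity, fun u hu x => ?_⟩
  set w := Q.dv x u with hw
  have hTu : ∀ j, u j = ∑ k, Q.T x j k * w k := by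
    intro j
    have h1 : (Q.T x).mulVec w = u := by
      rw [hw]
      unfold Quat.dv
      rw [Matrix.mulVec_mulVec, Matrix.mul_nonsing_inv _ (isUnit_iff_ne_zero.mpr (Q.T_det x)),
        Matrix.one_mulVec]
    conv_lhs => rw [← h1]
    rfl
  have hju : ∀ j, u j ^ 2 ≤ (3 * B * len w) ^ 2 := by
    intro j
    rw [← sq_abs]
    refine pow_le_pow_left₀ (abs_nonneg _) ?_ 2
    rw [hTu j]
    refine (Finset.abs_sum_le_sum_abs _ _).trans ?_
    refine (Finset.sum_le_sum (g := fun _ => B * len w) fun k _ => ?_).trans ?_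
    · rw [abs_mul]
      exact mul_le_mul (hT x j k) (abs_le_len w k) (abs_nonneg _) hBpos.le
    · rw [Finset.sum_const]
      simp
      linarith
  have h1 : (1 : ℝ) ≤ 36 * (B * len w) ^ 2 := by
    have := len_sq u
    rw [hu, Fin.sum_univ_three] at this
    have h0 := hju 0
    have h1 := hju 1
    have h2 := hju 2
    nlinarith [sq_nonneg (B * len w)]
  have h2 : (1 : ℝ) ≤ 6 * (B * len w) := by
    have hnn : 0 ≤ B * len w := mul_nonneg hBpos.le (len_nonneg _)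
    nlinarith
  unfold Quat.rho
  rw [← hw, div_le_iff₀ (by positivity)]
  nlinarith

/-! ## The zero order term -/

/-- the zero order term on `β` -/
def zmf (Z : R4 → En) (fm : R4 → Sp) (θ : R4 → R4 →L[ℝ] ℝ) (x : R4) : Sp :=
  (∑ c, sig c (fderiv ℝ fm x (Q.b c x)) + Z x (fm x)) -
    ∑ c, (Complex.I * (θ x (Q.b c x) : ℂ)) • sig c (fm x)

/-- operators as real linear maps -/
def rs : En →L[ℝ] Sp →L[ℝ] Sp := ContinuousLinearMap.restrictScalarsL ℂ Sp Sp ℝ ℝ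

/-- `v ↦ i σ_c v` -/
def isg (c : Fin 4) : Sp →L[ℝ] Sp := rs (Complex.I • sig c)

lemma zmf_eq (Z : R4 → En) (fm : R4 → Sp) (θ : R4 → R4 →L[ℝ] ℝ) : zmf Q Z fm θ = fun x =>
    (∑ c, rs (sig c) ((ContinuousLinearMap.id ℝ (R4 →L[ℝ] Sp)) (fderiv ℝ fm x) (Q.b c x)) +
      rs (Z x) (fm x)) -
    ∑ c, (ContinuousLinearMap.lsmul ℝ ℝ : ℝ →L[ℝ] Sp →L[ℝ] Sp)
      ((ContinuousLinearMap.id ℝ (R4 →L[ℝ] ℝ)) (θ x) (Q.b c x)) (isg c (fm x)) := by
  funext x
  unfold zmf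
  congr 1
  refine Finset.sum_congr rfl fun c _ => ?_
  simp only [ContinuousLinearMap.coe_id', id_eq, ContinuousLinearMap.lsmul_apply]
  change _ = θ x (Q.b c x) • (Complex.I • sig c (fm x))
  rw [mul_comm, mul_smul]
  exact (Complex.coe_smul _ _)

lemma zmf_smooth_bd (Z : R4 → En) (hZ : ContDiff ℝ ∞ Z) (hZp : Per4 Z) (M : ℝ) :
    ∃ N : ℝ, ∀ (fm : R4 → Sp) (θ : R4 → R4 →L[ℝ] ℝ), ContDiff ℝ ∞ fm → ContDiff ℝ ∞ θ →
      Bd M fm → Bd M (fderiv ℝ fm) → Bd M θ →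
      ContDiff ℝ ∞ (zmf Q Z fm θ) ∧ Bd N (zmf Q Z fm θ) := by
  obtain ⟨MZ, bZ⟩ := per_bd hZ hZp
  have hb : ∀ a, ∃ M, Bd M (Q.b a) := fun a => per_bd (Q.b_smooth a) (Q.b_per a)
  choose Mb bb using hb
  refine ⟨(∑ c, ‖rs (sig c)‖ * (‖ContinuousLinearMap.id ℝ (R4 →L[ℝ] Sp)‖ * (4 * (M * Mb c))) +
      ‖rs‖ * (4 * (MZ * M))) + ∑ c, ‖(ContinuousLinearMap.lsmul ℝ ℝ : ℝ →L[ℝ] Sp →L[ℝ] Sp)‖ *
      (4 * ((‖ContinuousLinearMap.id ℝ (R4 →L[ℝ] ℝ)‖ * (4 * (M * Mb c))) * (‖isg c‖ * M))),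
    fun fm θ hfm hθ bf bdf bθ => ?_⟩
  rw [zmf_eq]
  have hfm1 : ContDiff ℝ ∞ (fderiv ℝ fm) := hfm.fderiv_right (m := ∞) (by norm_num)
  have s1 : ∀ c, ContDiff ℝ ∞ fun x =>
      (ContinuousLinearMap.id ℝ (R4 →L[ℝ] Sp)) (fderiv ℝ fm x) (Q.b c x) :=
    fun c => ((ContinuousLinearMap.id ℝ (R4 →L[ℝ] Sp)).contDiff.comp hfm1).clm_apply (Q.b_smooth c)
  have s2 : ∀ c, ContDiff ℝ ∞ fun x => rs (sig c)
      ((ContinuousLinearMap.id ℝ (R4 →L[ℝ] Sp)) (fderiv ℝ fm x) (Q.b c x)) :=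
    fun c => (rs (sig c)).contDiff.comp (s1 c)
  have s3 : ContDiff ℝ ∞ fun x => rs (Z x) (fm x) := (rs.contDiff.comp hZ).clm_apply hfm
  have s4 : ∀ c, ContDiff ℝ ∞ fun x =>
      (ContinuousLinearMap.id ℝ (R4 →L[ℝ] ℝ)) (θ x) (Q.b c x) :=
    fun c => ((ContinuousLinearMap.id ℝ (R4 →L[ℝ] ℝ)).contDiff.comp hθ).clm_apply (Q.b_smooth c)
  have s5 : ∀ c, ContDiff ℝ ∞ fun x => isg c (fm x) := fun c => (isg c).contDiff.comp hfm
  have s6 : ∀ c, ContDiff ℝ ∞ fun x => (ContinuousLinearMap.lsmul ℝ ℝ : ℝ →L[ℝ] Sp →L[ℝ] Sp)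
      ((ContinuousLinearMap.id ℝ (R4 →L[ℝ] ℝ)) (θ x) (Q.b c x)) (isg c (fm x)) :=
    fun c => ((ContinuousLinearMap.lsmul ℝ ℝ : ℝ →L[ℝ] Sp →L[ℝ] Sp).contDiff.comp
      (s4 c)).clm_apply (s5 c)
  have s7 : ContDiff ℝ ∞ fun x => ∑ c, rs (sig c)
      ((ContinuousLinearMap.id ℝ (R4 →L[ℝ] Sp)) (fderiv ℝ fm x) (Q.b c x)) :=
    ContDiff.sum fun c _ => s2 c
  have s8 : ContDiff ℝ ∞ fun x => ∑ c, (ContinuousLinearMap.lsmul ℝ ℝ : ℝ →L[ℝ] Sp →L[ℝ] Sp)
      ((ContinuousLinearMap.id ℝ (R4 →L[ℝ] ℝ)) (θ x) (Q.b c x)) (isg c (fm x)) :=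
    ContDiff.sum fun c _ => s6 c
  refine ⟨(s7.add s3).sub s8, ?_⟩
  refine Bd.sub (s7.add s3) s8 (Bd.add s7 s3 (Bd.sum _ (fun c _ => s2 c) fun c _ =>
    Bd.lin (rs (sig c)) (s1 c) (Bd.bilin _ hfm1 (Q.b_smooth c) bdf (bb c)))
      (Bd.bilin rs hZ hfm bZ bf)) (Bd.sum _ (fun c _ => s6 c) fun c _ =>
    Bd.bilin _ (s4 c) (s5 c) (Bd.bilin _ hθ (Q.b_smooth c) bθ (bb c)) (Bd.lin (isg c) hfm bf))

/-! ## The curvature correction -/

lemma dd_sub {A θ : R4 → R4 →L[ℝ] ℝ} (hA : ContDiff ℝ ∞ A) (hθ : ContDiff ℝ ∞ θ) (x : R4) :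
    dd (fun y => A y - θ y) x = dd A x - dd θ x := by
  unfold dd
  rw [fderiv_fun_sub (hA.differentiable (by norm_num)).differentiableAt
    (hθ.differentiable (by norm_num)).differentiableAt]
  ext p q
  simp
  ring

lemma w4_sub (f g b : R4 → R4 → ℝ) :
    w4 (fun p q => f p q - g p q) b = w4 f b - w4 g b := by
  unfold w4
  ring

/-- `-dθ ∧ ω_j` -/
def kapf (D : Data) (θ : R4 → R4 →L[ℝ] ℝ) (x : R4) (j : Fin 3) : ℝ :=
  -w4 (fun p q => dd θ x p q) (fun p q => (tri D j).val x p q)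

lemma val_cont (a : CForm) (p q : R4) : Continuous fun x => a.val x p q := by
  unfold CForm.val
  have h1 : Continuous (fderiv ℝ a.lam) := a.lam_smooth.continuous_fderiv (by norm_num)
  fun_prop

lemma val_per (a : CForm) (p q : R4) : Per4 fun x => a.val x p q := by
  intro n x
  have h1 : Per4 (fderiv ℝ a.lam) := per4_fderiv (fun n x => a.lam_per n x)
  simp only [CForm.val, h1 n x]

lemma dd_cont {θ : R4 → R4 →L[ℝ] ℝ} (hθ : ContDiff ℝ ∞ θ) (p q : R4) :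
    Continuous fun x => dd θ x p q := by
  have h1 : Continuous (fderiv ℝ θ) := hθ.continuous_fderiv (by norm_num)
  unfold dd
  simp only [_root_.sub_apply, ContinuousLinearMap.flip_apply]
  fun_prop

lemma dd_per {θ : R4 → R4 →L[ℝ] ℝ} (hθ : Per4 θ) (p q : R4) : Per4 fun x => dd θ x p q := by
  intro n x
  simp only [dd, per4_fderiv hθ n x]

lemma norm_e (i : Fin 4) : ‖e i‖ ≤ 1 := by
  unfold e
  rw [Pi.norm_single]
  simp

lemma dd_bd {θ : R4 → R4 →L[ℝ] ℝ} {M : ℝ} (hθ : Bd M θ) (x : R4) (i j : Fin 4) :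
    |dd θ x (e i) (e j)| ≤ 2 * M := by
  have hM := (hθ x).2.1
  have h1 : ∀ i j, |fderiv ℝ θ x (e i) (e j)| ≤ M := by
    intro i j
    rw [← Real.norm_eq_abs]
    have h2 := ContinuousLinearMap.le_opNorm₂ (fderiv ℝ θ x) (e i) (e j)
    have h3 := norm_e i
    have h4 := norm_e j
    have h5 := norm_nonneg (fderiv ℝ θ x)
    have h6 : ‖fderiv ℝ θ x‖ * ‖e i‖ * ‖e j‖ ≤ M * 1 * 1 :=
      mul_le_mul (mul_le_mul hM h3 (norm_nonneg _) (h5.trans hM)) h4 (norm_nonneg _)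
        (mul_nonneg (h5.trans hM) zero_le_one)
    linarith
  unfold dd
  simp only [_root_.sub_apply, ContinuousLinearMap.flip_apply]
  have h7 := abs_sub (fderiv ℝ θ x (e i) (e j)) (fderiv ℝ θ x (e j) (e i))
  have h8 := h1 i j
  have h9 := h1 j i
  linarith

lemma kapf_bd (D : Data) (M : ℝ) : ∃ N : ℝ, ∀ θ : R4 → R4 →L[ℝ] ℝ, Bd M θ → ∀ x j,
    |kapf D θ x j| ≤ N := by
  have h1 : ∀ (j : Fin 3) (p q : Fin 4), ∃ C : ℝ, ∀ x, ‖(tri D j).val x (e p) (e q)‖ ≤ C :=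
    fun j p q => per_bounded (val_cont _ _ _) (val_per _ _ _)
  choose C hC using h1
  refine ⟨∑ j, ∑ p, ∑ q, 12 * M * C j p q, fun θ hθ x j => ?_⟩
  have hM : 0 ≤ M := Bd.nonneg hθ
  have hCnn : ∀ j p q, 0 ≤ C j p q := fun j p q => (norm_nonneg _).trans (hC j p q 0)
  have hle : ∀ p q, C j p q ≤ ∑ j, ∑ p, ∑ q, C j p q := by
    intro p q
    refine (Finset.single_le_sum (f := fun q => C j p q) (fun i _ => hCnn j p i)
      (Finset.mem_univ q)).trans ?_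
    refine (Finset.single_le_sum (f := fun p => ∑ q, C j p q) (fun i _ =>
      Finset.sum_nonneg fun q _ => hCnn j i q) (Finset.mem_univ p)).trans ?_
    exact Finset.single_le_sum (f := fun j => ∑ p, ∑ q, C j p q) (fun i _ =>
      Finset.sum_nonneg fun p _ => Finset.sum_nonneg fun q _ => hCnn i p q) (Finset.mem_univ j)
  set S := ∑ j, ∑ p, ∑ q, C j p q with hS
  have hS0 : 0 ≤ S := (hCnn j 0 0).trans (hle 0 0)
  have e1 : ∑ j, ∑ p, ∑ q, 12 * M * C j p q = 12 * M * S := by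
    simp only [hS, Finset.mul_sum]
  rw [e1]
  have hprod : ∀ a b c d, |dd θ x (e a) (e b) * (tri D j).val x (e c) (e d)| ≤ 2 * M * S := by
    intro a b c d
    rw [abs_mul]
    have := hC j c d x
    rw [Real.norm_eq_abs] at this
    exact mul_le_mul (dd_bd hθ x a b) (this.trans (hle c d)) (abs_nonneg _) (by positivity)
  unfold kapf w4
  have h01 := abs_le.mp (hprod 0 1 2 3)
  have h02 := abs_le.mp (hprod 0 2 1 3)
  have h03 := abs_le.mp (hprod 0 3 1 2)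
  have h12 := abs_le.mp (hprod 1 2 0 3)
  have h13 := abs_le.mp (hprod 1 3 0 2)
  have h23 := abs_le.mp (hprod 2 3 0 1)
  rw [abs_neg, abs_le]
  constructor <;> linarith [h01.1, h01.2, h02.1, h02.2, h03.1, h03.2, h12.1, h12.2, h13.1, h13.2,
    h23.1, h23.2]

lemma kapf_cont (D : Data) {θ : R4 → R4 →L[ℝ] ℝ} (hθ : ContDiff ℝ ∞ θ) :
    Continuous (kapf D θ) := by
  refine continuous_pi fun j => ?_
  unfold kapf w4
  have h1 : ∀ p q, Continuous fun x => dd θ x (e p) (e q) := fun p q => dd_cont hθ _ _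
  have h2 : ∀ p q, Continuous fun x => (tri D j).val x (e p) (e q) := fun p q => val_cont _ _ _
  exact (((((((h1 0 1).mul (h2 2 3)).sub ((h1 0 2).mul (h2 1 3))).add ((h1 0 3).mul (h2 1 2))).add
    ((h1 1 2).mul (h2 0 3))).sub ((h1 1 3).mul (h2 0 2))).add ((h1 2 3).mul (h2 0 1))).neg

lemma kapf_per (D : Data) {θ : R4 → R4 →L[ℝ] ℝ} (hθ : Per4 θ) : Per4 (kapf D θ) := by
  intro n x
  funext j
  unfold kapf
  congr 1
  have h1 : ∀ p q, dd θ (tr n x) p q = dd θ x p q := fun p q => dd_per hθ p q n x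
  have h2 : ∀ p q, (tri D j).val (tr n x) p q = (tri D j).val x p q :=
    fun p q => val_per _ p q n x
  simp only [h1, h2]

/-! ## Covariant derivatives -/

lemma cov_decomp {A θ : R4 → R4 →L[ℝ] ℝ} {α β : R4 → ℂ} {f g : R4 → Sp} (S : ℝ)
    (hα : ContDiff ℝ ∞ α) (hβ : ContDiff ℝ ∞ β) (hf : ContDiff ℝ ∞ f) (hg : ContDiff ℝ ∞ g)
    (x u : R4) :
    cov A (fun y => (S : ℂ) • (α y • f y + β y • g y)) x u =
      (S : ℂ) • (cov (fun y => A y - θ y) α x u • f x + cov (fun y => A y - θ y) β x u • g x +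
        α x • (fderiv ℝ f x u - (Complex.I * (θ x u : ℂ)) • f x) +
        β x • (fderiv ℝ g x u - (Complex.I * (θ x u : ℂ)) • g x)) := by
  have dα : DifferentiableAt ℝ α x := (hα.differentiable (by norm_num)).differentiableAt
  have dβ : DifferentiableAt ℝ β x := (hβ.differentiable (by norm_num)).differentiableAt
  have df : DifferentiableAt ℝ f x := (hf.differentiable (by norm_num)).differentiableAt
  have dg : DifferentiableAt ℝ g x := (hg.differentiable (by norm_num)).differentiableAt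
  have h1 : fderiv ℝ (fun y => (S : ℂ) • (α y • f y + β y • g y)) x u =
      (S : ℂ) • ((fderiv ℝ α x u) • f x + α x • fderiv ℝ f x u +
        ((fderiv ℝ β x u) • g x + β x • fderiv ℝ g x u)) := by
    have H := ((dα.hasFDerivAt.smul df.hasFDerivAt).add
      (dβ.hasFDerivAt.smul dg.hasFDerivAt)).const_smul (S : ℂ)
    have H2 : fderiv ℝ (fun y => (S : ℂ) • (α y • f y + β y • g y)) x = _ := H.fderiv
    rw [H2]
    simp only [_root_.smul_apply, _root_.add_apply,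
      ContinuousLinearMap.smulRight_apply]
    congr 1
    abel
  unfold cov
  rw [h1]
  simp only [_root_.sub_apply, Complex.ofReal_sub, smul_eq_mul]
  module

/-! ## The coefficients -/

lemma coef_smooth (S : ℝ) {f s : R4 → Sp} (hf : ContDiff ℝ ∞ f) (hs : ContDiff ℝ ∞ s)
    (h0 : ∀ x, ‖f x‖ ^ 2 ≠ 0) :
    ContDiff ℝ ∞ fun x => (S : ℂ)⁻¹ * (((‖f x‖ ^ 2 : ℝ) : ℂ)⁻¹ * inner ℂ (f x) (s x)) := by
  have h1 : ContDiff ℝ ∞ fun x => ((‖f x‖ ^ 2 : ℝ) : ℂ) :=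
    Complex.ofRealCLM.contDiff.comp (hf.norm_sq ℂ)
  have h2 : ContDiff ℝ ∞ fun x => ((‖f x‖ ^ 2 : ℝ) : ℂ)⁻¹ :=
    h1.inv fun x => by exact_mod_cast h0 x
  exact contDiff_const.mul (h2.mul (hf.inner ℂ hs))

lemma coef_quasi (S : ℝ) {f s : R4 → Sp} (hf : Per4 f) (hs : QS s) :
    QS fun x => (S : ℂ)⁻¹ * (((‖f x‖ ^ 2 : ℝ) : ℂ)⁻¹ * inner ℂ (f x) (s x)) := by
  intro k x
  simp only [hf k x, hs k x, inner_smul_right, smul_eq_mul]
  ring

lemma dirac_algebra {Z : R4 → En} {A θ : R4 → R4 →L[ℝ] ℝ} {α β : R4 → ℂ} {fp fm : R4 → Sp}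
    {S : ℝ} (hS : S ≠ 0) (hα : ContDiff ℝ ∞ α) (hβ : ContDiff ℝ ∞ β) (hf : ContDiff ℝ ∞ fp)
    (hg : ContDiff ℝ ∞ fm) (x : R4)
    (h : Q.dirac A (fun y => (S : ℂ) • (α y • fp y + β y • fm y)) x +
      Z x ((S : ℂ) • (α x • fp x + β x • fm x)) = 0)
    (hD : ∑ c, sig c (fderiv ℝ fp x (Q.b c x)) + Z x (fp x) =
      ∑ c, (Complex.I * (θ x (Q.b c x) : ℂ)) • sig c (fp x)) :
    ∑ c, sig c (cov (fun y => A y - θ y) α x (Q.b c x) • fp x +
      cov (fun y => A y - θ y) β x (Q.b c x) • fm x) + β x • zmf Q Z fm θ x = 0 := by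
  unfold Quat.dirac at h
  simp only [cov_decomp (θ := θ) S hα hβ hf hg] at h
  have hSc : (S : ℂ) ≠ 0 := by exact_mod_cast hS
  have e1 : ∀ (a : Fin 4) (P R T : Sp), sig a ((S : ℂ) • (P + α x • R + β x • T)) =
      (S : ℂ) • (sig a P + α x • sig a R + β x • sig a T) := by
    intro a P R T
    simp only [map_smul, map_add]
  simp only [e1, map_smul, map_add, map_sub] at h
  rw [← Finset.smul_sum, ← smul_add, smul_eq_zero] at h
  have h' := h.resolve_left hSc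
  simp only [Finset.sum_add_distrib, ← Finset.smul_sum, Finset.sum_sub_distrib] at h'
  simp only [zmf, map_add, Finset.sum_add_distrib]
  have e2 : (∑ c, sig c (fderiv ℝ fp x (Q.b c x)) -
      ∑ c, (Complex.I * (θ x (Q.b c x) : ℂ)) • sig c (fp x)) = - Z x (fp x) := by
    rw [sub_eq_iff_eq_add, ← hD]
    abel
  rw [e2] at h'
  rw [← h']
  simp only [map_smul]
  module

/-- `SOL` from `MAX` and `TRI` -/
theorem sol (hmax : MAX_statement) (htri : TRI_statement) : SOL_statement := by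
  intro D Q Z hZ hZp
  obtain ⟨K, hK, hmax⟩ := hmax D Q Z hZ hZp
  obtain ⟨M1, htri⟩ := htri D Q Z hZ hZp
  obtain ⟨c0, hc0, hrho⟩ := rho_lower Q
  obtain ⟨N1, hz⟩ := zmf_smooth_bd Q Z hZ hZp M1
  obtain ⟨N2, hk⟩ := kapf_bd D M1
  refine ⟨max (max M1 N1) (max N2 (K / c0)), fun A ψ r u hr hu hsw => ?_⟩
  obtain ⟨fp, fm, θ, sfp, sfm, sθ, pfp, pfm, pθ, bfp, bfm, bdfm, bθ, nfp, nfm, efp, efm, hD⟩ :=
    htri u hu
  obtain ⟨szm, bzm⟩ := hz fm θ sfm sθ bfm bdfm bθ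
  have hρ : ∀ x, 0 < Q.rho u x := fun x => hc0.trans_le (hrho u hu x)
  have orth : ∀ x, inner ℂ (fp x) (fm x) = 0 := fun x => eig_orth (hρ x) (efp x) (efm x)
  set S := Real.sqrt r with hS
  have hS0 : 0 < S := Real.sqrt_pos.mpr hr
  have hSc : (S : ℂ) ≠ 0 := by exact_mod_cast hS0.ne'
  have hS2 : S ^ 2 = r := Real.sq_sqrt hr.le
  set α : R4 → ℂ := fun x => (S : ℂ)⁻¹ * (((‖fp x‖ ^ 2 : ℝ) : ℂ)⁻¹ * inner ℂ (fp x) (ψ x))
    with hα
  set β : R4 → ℂ := fun x => (S : ℂ)⁻¹ * (((‖fm x‖ ^ 2 : ℝ) : ℂ)⁻¹ * inner ℂ (fm x) (ψ x))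
    with hβ
  have sα : ContDiff ℝ ∞ α := coef_smooth S sfp hsw.ψ_smooth fun x => by
    rw [nfp x]; exact (hρ x).ne'
  have sβ : ContDiff ℝ ∞ β := coef_smooth S sfm hsw.ψ_smooth fun x => by
    rw [nfm x]; exact (hρ x).ne'
  have dec : ∀ x, ψ x = (S : ℂ) • (α x • fp x + β x • fm x) := by
    intro x
    have h1 := (decomp (hρ x) (nfp x) (nfm x) (orth x) (ψ x)).1
    conv_lhs => rw [← h1]
    rw [smul_add, smul_smul, smul_smul]
    simp only [hα, hβ, nfp x, nfm x, mul_inv_cancel_left₀ hSc]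
  have nrm : ∀ x, (‖α x‖ ^ 2 + ‖β x‖ ^ 2) * (r * Q.rho u x) = ‖ψ x‖ ^ 2 := by
    intro x
    have h1 := (decomp (hρ x) (nfp x) (nfm x) (orth x) (ψ x)).2
    rw [← h1]
    simp only [hα, hβ, nfp x, nfm x]
    rw [norm_mul (S : ℂ)⁻¹, norm_mul (S : ℂ)⁻¹, norm_inv, Complex.norm_real, Real.norm_eq_abs,
      abs_of_pos hS0, ← hS2]
    field_simp
  have decf : ψ = fun x => (S : ℂ) • (α x • fp x + β x • fm x) := funext dec
  have iM1 : M1 ≤ max (max M1 N1) (max N2 (K / c0)) := (le_max_left _ _).trans (le_max_left _ _)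
  have iN1 : N1 ≤ max (max M1 N1) (max N2 (K / c0)) := (le_max_right _ _).trans (le_max_left _ _)
  have iN2 : N2 ≤ max (max M1 N1) (max N2 (K / c0)) := (le_max_left _ _).trans (le_max_right _ _)
  have iK : K / c0 ≤ max (max M1 N1) (max N2 (K / c0)) :=
    (le_max_right _ _).trans (le_max_right _ _)
  have pzm : Per4 (zmf Q Z fm θ) := by
    intro n x
    unfold zmf
    simp only [per4_fderiv pfm n x, hZp n x, pfm n x, pθ n x, Q.b_per _ n x]
  refine ⟨{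
    fp := fp
    fm := fm
    zm := zmf Q Z fm θ
    κ := kapf D θ
    a := fun x => A x - θ x
    α := α
    β := β
    r_pos := hr
    u_unit := hu
    fp_smooth := sfp
    fm_smooth := sfm
    zm_smooth := szm
    κ_cont := kapf_cont D sθ
    a_smooth := hsw.A_smooth.sub sθ
    α_smooth := sα
    β_smooth := sβ
    fp_per := pfp
    fm_per := pfm
    zm_per := pzm
    κ_per := kapf_per D pθ
    a_quasi := ?_
    α_quasi := coef_quasi S pfp hsw.ψ_quasi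
    β_quasi := coef_quasi S pfm hsw.ψ_quasi
    fp_bd := Bd.mono bfp iM1
    fm_bd := Bd.mono bfm iM1
    zm_bd := Bd.mono bzm iN1
    κ_bd := fun x j => (hk θ bθ x j).trans iN2
    fp_norm := nfp
    fm_norm := nfm
    fp_eig := efp
    fm_eig := efm
    dirac := ?_
    curv := ?_
    max := ?_ }⟩
  · intro k x
    simp only [hsw.A_quasi k x, pθ k x]
    abel
  · intro x
    refine dirac_algebra Q hS0.ne' sα sβ sfp sfm x ?_ (hD x)
    have h1 := hsw.dirac x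
    rw [dec x] at h1
    rw [← h1]
    congr 2
    exact decf.symm
  · intro x j
    have h1 := hsw.curv x j
    have h2 : ∀ p q, dd (fun y => A y - θ y) x p q = dd A x p q - dd θ x p q := by
      intro p q
      rw [dd_sub hsw.A_smooth sθ]
      rfl
    simp only [h2]
    rw [w4_sub, h1]
    have h3 : ∀ k, (inner ℂ (ψ x) (pau k (ψ x))).re = r * (inner ℂ (α x • fp x + β x • fm x)
        (pau k (α x • fp x + β x • fm x))).re := by
      intro k
      rw [dec x, map_smul, inner_smul_left, inner_smul_right, Complex.conj_ofReal, ← mul_assoc,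
        ← Complex.ofReal_mul, ← sq, hS2, Complex.re_ofReal_mul]
    simp only [h3, kapf]
    rw [mul_sub, Finset.mul_sum, Finset.mul_sum, Finset.mul_sum]
    rw [sub_eq_add_neg _ (w4 _ _)]
    congr 2
    refine Finset.sum_congr rfl fun k _ => ?_
    ring
  · intro x
    have h1 := hmax A ψ _ hsw x
    rw [rho_smul Q hr, ← nrm x] at h1
    have h2 := hrho u hu x
    have h3 : 0 < r * Q.rho u x := mul_pos hr (hρ x)
    have h4 : ‖α x‖ ^ 2 + ‖β x‖ ^ 2 ≤ 1 + K / (r * Q.rho u x) := by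
      rw [← div_self h3.ne', ← add_div, le_div_iff₀ h3]
      exact h1
    have h5 : K / (r * Q.rho u x) ≤ (K / c0) / r := by
      rw [div_div]
      refine div_le_div_of_nonneg_left hK.le (mul_pos hc0 hr) ?_
      rw [mul_comm]
      exact mul_le_mul_of_nonneg_left h2 hr.le
    have h6 : (K / c0) / r ≤ max (max M1 N1) (max N2 (K / c0)) / r :=
      div_le_div_of_nonneg_right iK hr.le
    linarith

end Vale.Agent.P247.H869
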