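import Vale.Agent.P247.H647.Sta

/-!
# P247, S2: uniform bounds of derivatives

Closure properties of the predicate `Bd` and bounds for smooth periodic functions.
-/

open scoped ContDiff Topology
open Set MeasureTheory Filter Metric

noncomputable section

namespace Vale.Agent.P247.H869

open Vale.Agent.P247.H74 Vale.Agent.P247.H574 Vale.Agent.P247.H647

variable {E F G : Type*} [NormedAddCommGroup E] [NormedSpace ℝ E] [NormedAddCommGroup F]
  [NormedSpace ℝ F] [NormedAddCommGroup G] [NormedSpace ℝ G]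

lemma bd_iff {M : ℝ} {g : R4 → E} : Bd M g ↔ ∀ x, ∀ k ≤ 2, ‖iteratedFDeriv ℝ k g x‖ ≤ M := by
  have h2 : ∀ x, ‖iteratedFDeriv ℝ 2 g x‖ = ‖fderiv ℝ (fderiv ℝ g) x‖ := by
    intro x
    rw [← norm_iteratedFDeriv_fderiv (n := 1), norm_iteratedFDeriv_one]
  constructor
  · intro h x k hk
    interval_cases k
    · rw [norm_iteratedFDeriv_zero]; exact (h x).1
    · rw [norm_iteratedFDeriv_one]; exact (h x).2.1
    · rw [h2]; exact (h x).2.2
  · intro h x
    refine ⟨?_, ?_, ?_⟩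
    · rw [← norm_iteratedFDeriv_zero (𝕜 := ℝ)]; exact h x 0 (by norm_num)
    · rw [← norm_iteratedFDeriv_one]; exact h x 1 (by norm_num)
    · rw [← h2]; exact h x 2 le_rfl

lemma Bd.mono {M N : ℝ} {g : R4 → E} (h : Bd M g) (hMN : M ≤ N) : Bd N g :=
  fun x => ⟨(h x).1.trans hMN, (h x).2.1.trans hMN, (h x).2.2.trans hMN⟩

lemma Bd.nonneg {M : ℝ} {g : R4 → E} (h : Bd M g) : 0 ≤ M := (norm_nonneg _).trans (h 0).1

lemma Bd.bilin (B : E →L[ℝ] F →L[ℝ] G) {f : R4 → E} {g : R4 → F} {M N : ℝ}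
    (hf : ContDiff ℝ ∞ f) (hg : ContDiff ℝ ∞ g) (bf : Bd M f) (bg : Bd N g) :
    Bd (‖B‖ * (4 * (M * N))) (fun x => B (f x) (g x)) := by
  rw [bd_iff] at bf bg ⊢
  intro x k hk
  have hM : 0 ≤ M := (norm_nonneg _).trans (bf 0 0 (by norm_num))
  have hN : 0 ≤ N := (norm_nonneg _).trans (bg 0 0 (by norm_num))
  refine (ContinuousLinearMap.norm_iteratedFDeriv_le_of_bilinear B hf hg x (n := k)
    (by exact_mod_cast le_top)).trans ?_
  refine mul_le_mul_of_nonneg_left ?_ (norm_nonneg B)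
  have h1 : ∑ i ∈ Finset.range (k + 1), ((k.choose i : ℕ) : ℝ) * ‖iteratedFDeriv ℝ i f x‖ *
      ‖iteratedFDeriv ℝ (k - i) g x‖ ≤
      ∑ i ∈ Finset.range (k + 1), ((k.choose i : ℕ) : ℝ) * (M * N) := by
    refine Finset.sum_le_sum fun i hi => ?_
    have hi' : i ≤ k := Nat.lt_succ_iff.mp (Finset.mem_range.mp hi)
    rw [mul_assoc]
    refine mul_le_mul_of_nonneg_left ?_ (Nat.cast_nonneg _)
    exact mul_le_mul (bf x i (hi'.trans hk)) (bg x (k - i) ((Nat.sub_le _ _).trans hk))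
      (norm_nonneg _) hM
  refine h1.trans ?_
  rw [← Finset.sum_mul, ← Nat.cast_sum, Nat.sum_range_choose]
  refine mul_le_mul_of_nonneg_right ?_ (mul_nonneg hM hN)
  interval_cases k <;> norm_num

lemma Bd.lin (L : E →L[ℝ] F) {f : R4 → E} {M : ℝ} (hf : ContDiff ℝ ∞ f) (bf : Bd M f) :
    Bd (‖L‖ * M) (fun x => L (f x)) := by
  rw [bd_iff] at bf ⊢
  intro x k hk
  refine (ContinuousLinearMap.norm_iteratedFDeriv_comp_left L (hf.contDiffAt (x := x)) (n := k)
    (by exact_mod_cast le_top)).trans ?_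
  exact mul_le_mul_of_nonneg_left (bf x k hk) (norm_nonneg _)

lemma Bd.add {f g : R4 → E} {M N : ℝ} (hf : ContDiff ℝ ∞ f) (hg : ContDiff ℝ ∞ g)
    (bf : Bd M f) (bg : Bd N g) : Bd (M + N) (fun x => f x + g x) := by
  rw [bd_iff] at bf bg ⊢
  intro x k hk
  have h := iteratedFDeriv_add_apply (𝕜 := ℝ) (i := k) (x := x)
    (f := f) (g := g) ((hf.of_le (by exact_mod_cast le_top)).contDiffAt)
    ((hg.of_le (by exact_mod_cast le_top)).contDiffAt)
  have h' : iteratedFDeriv ℝ k (fun x => f x + g x) x =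
      iteratedFDeriv ℝ k f x + iteratedFDeriv ℝ k g x := h
  rw [h']
  exact (norm_add_le _ _).trans (add_le_add (bf x k hk) (bg x k hk))

lemma Bd.neg {f : R4 → E} {M : ℝ} (bf : Bd M f) : Bd M (fun x => -f x) := by
  rw [bd_iff] at bf ⊢
  intro x k hk
  have h : iteratedFDeriv ℝ k (fun x => -f x) x = -iteratedFDeriv ℝ k f x :=
    iteratedFDeriv_neg_apply
  rw [h, norm_neg]
  exact bf x k hk

lemma Bd.sub {f g : R4 → E} {M N : ℝ} (hf : ContDiff ℝ ∞ f) (hg : ContDiff ℝ ∞ g)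
    (bf : Bd M f) (bg : Bd N g) : Bd (M + N) (fun x => f x - g x) := by
  have := Bd.add hf hg.neg bf (Bd.neg bg)
  simpa only [sub_eq_add_neg] using this

lemma Bd.sum {ι : Type*} (s : Finset ι) {f : ι → R4 → E} {M : ι → ℝ}
    (hf : ∀ i ∈ s, ContDiff ℝ ∞ (f i)) (bf : ∀ i ∈ s, Bd (M i) (f i)) :
    Bd (∑ i ∈ s, M i) (fun x => ∑ i ∈ s, f i x) := by
  classical
  induction s using Finset.induction_on with
  | empty =>
    rw [bd_iff]
    intro x k _
    simp only [Finset.sum_empty]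
    rw [iteratedFDeriv_fun_zero]
    simp
  | insert a t ha ih =>
    have e1 : (fun x => ∑ i ∈ insert a t, f i x) = fun x => f a x + ∑ i ∈ t, f i x := by
      funext x; exact Finset.sum_insert ha
    rw [e1, Finset.sum_insert ha]
    refine Bd.add (hf a (Finset.mem_insert_self a t)) ?_ (bf a (Finset.mem_insert_self a t))
      (ih (fun i hi => hf i (Finset.mem_insert_of_mem hi))
        (fun i hi => bf i (Finset.mem_insert_of_mem hi)))
    exact ContDiff.sum fun i hi => hf i (Finset.mem_insert_of_mem hi)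

/-! ## Periodic functions -/

/-- a lattice vector as an element of `R4` -/
def lv (n : Fin 4 → ℤ) : R4 := fun i => n i

lemma tr_eq (n : Fin 4 → ℤ) (x : R4) : tr n x = x + lv n := rfl

lemma per4_fderiv {g : R4 → E} (h : Per4 g) : Per4 (fderiv ℝ g) := by
  intro n x
  rw [tr_eq, ← fderiv_comp_add_right]
  congr 1
  funext y
  exact h n y

omit [NormedSpace ℝ E] in
lemma per_bounded {g : R4 → E} (hc : Continuous g) (h : Per4 g) : ∃ C : ℝ, ∀ x, ‖g x‖ ≤ C := by
  obtain ⟨C, hC⟩ := (isCompact_Icc (a := (0 : R4)) (b := 1)).exists_bound_of_continuousOn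
    hc.continuousOn
  refine ⟨C, fun x => ?_⟩
  have e1 : g x = g (fun i => Int.fract (x i)) := by
    rw [← h (fun i => ⌊x i⌋) (fun i => Int.fract (x i))]
    congr 1
    funext i
    exact (Int.fract_add_floor (x i)).symm
  rw [e1]
  refine hC _ ⟨fun i => Int.fract_nonneg _, fun i => (Int.fract_lt_one _).le⟩

lemma per_bd {g : R4 → E} (hs : ContDiff ℝ ∞ g) (h : Per4 g) : ∃ M : ℝ, Bd M g := by
  have hs1 : ContDiff ℝ ∞ (fderiv ℝ g) := hs.fderiv_right (m := ∞) (by norm_num)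
  have hs2 : ContDiff ℝ ∞ (fderiv ℝ (fderiv ℝ g)) := hs1.fderiv_right (m := ∞) (by norm_num)
  obtain ⟨C0, h0⟩ := per_bounded hs.continuous h
  obtain ⟨C1, h1⟩ := per_bounded hs1.continuous (per4_fderiv h)
  obtain ⟨C2, h2⟩ := per_bounded hs2.continuous (per4_fderiv (per4_fderiv h))
  refine ⟨max C0 (max C1 C2), fun x => ⟨(h0 x).trans (le_max_left _ _),
    (h1 x).trans ((le_max_left _ _).trans (le_max_right _ _)),
    (h2 x).trans ((le_max_right _ _).trans (le_max_right _ _))⟩⟩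

end Vale.Agent.P247.H869
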